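import Mathlib
import Crest.Prelude.Def_QuadraticTransport

/-!
# Row 82 (S0109), package (G): the L¹ gap lemma

`K` compact convex with a ball inside, `φ : E → ℝ`, `S` an exact and `T` a `γ`-approximate
subgradient selection of `φ` on `K` (a.e.), both bounded by `M`.  Then
`∫_K ‖T - S‖ ≤ C * sqrt (∫_K γ)` with `C` depending only on `K` and `M`.
-/

set_option autoImplicit false
open MeasureTheory Set
open scoped InnerProductSpace ENNReal NNReal

namespace Crest.Agent.Helper8.OT

section Gap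
variable {E : Type*} [NormedAddCommGroup E] [InnerProductSpace ℝ E]

/-- The pointwise hypothesis of the gap lemma at `x`: `S x` is a subgradient of `φ` at `x`
relative to `K`, `T x` is a subgradient up to the defect `γ x`, both of norm `≤ M`. -/
def GapGood (K : Set E) (M : ℝ) (φ : E → ℝ) (S T : E → E) (γ : E → ℝ) (x : E) : Prop :=
  ‖S x‖ ≤ M ∧ ‖T x‖ ≤ M ∧ (∀ z ∈ K, φ x + ⟪S x, z - x⟫_ℝ ≤ φ z) ∧
    (∀ z ∈ K, φ x + ⟪T x, z - x⟫_ℝ - γ x ≤ φ z)

theorem GapGood.gamma_nonneg {K : Set E} {M : ℝ} {φ : E → ℝ} {S T : E → E} {γ : E → ℝ} {x : E}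
    (h : GapGood K M φ S T γ x) (hx : x ∈ K) : 0 ≤ γ x := by
  have := h.2.2.2 x hx
  simp at this
  linarith

theorem gapGood_pointwise {K : Set E} {M : ℝ} {φ : E → ℝ} {S T : E → E} {γ : E → ℝ} {x e : E}
    {r : ℝ} (hr : 0 < r) (hx : x ∈ K) (hxp : x + r • e ∈ K) (hxm : x - r • e ∈ K)
    (gx : GapGood K M φ S T γ x) (gp : GapGood K M φ S T γ (x + r • e))
    (gm : GapGood K M φ S T γ (x - r • e)) :
    |⟪T x - S x, e⟫_ℝ| ≤ ⟪S (x + r • e), e⟫_ℝ - ⟪S (x - r • e), e⟫_ℝ + γ x / r := by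
  have h1 := gx.2.2.2 (x + r • e) hxp
  have h2 := gp.2.2.1 x hx
  have h3 := gx.2.2.2 (x - r • e) hxm
  have h4 := gm.2.2.1 x hx
  have h5 := gx.2.2.1 (x + r • e) hxp
  have h6 := gx.2.2.1 (x - r • e) hxm
  have e1 : x + r • e - x = r • e := by abel
  have e2 : x - (x + r • e) = -(r • e) := by abel
  have e3 : x - r • e - x = -(r • e) := by abel
  have e4 : x - (x - r • e) = r • e := by abel
  rw [e1, inner_smul_right] at h1 h5
  rw [e2, inner_neg_right, inner_smul_right] at h2
  rw [e3, inner_neg_right, inner_smul_right] at h3 h6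
  rw [e4, inner_smul_right] at h4
  rw [inner_sub_left]
  have hq : r * (γ x / r) = γ x := mul_div_cancel₀ _ hr.ne'
  rw [abs_le]
  constructor
  · refine le_of_mul_le_mul_left ?_ hr
    nlinarith
  · refine le_of_mul_le_mul_left ?_ hr
    nlinarith

end Gap

section GapInt
variable {E : Type*} [NormedAddCommGroup E] [InnerProductSpace ℝ E] [FiniteDimensional ℝ E]
  [MeasurableSpace E] [BorelSpace E]

/-- Directional estimate: translation invariance only (no convexity of `K` needed). -/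
theorem gap_dir_integral (μ : Measure E) [μ.IsAddHaarMeasure] {K : Set E} (hKc : IsCompact K)
    {M : ℝ} (hM : 0 ≤ M) {φ : E → ℝ} {S T : E → E} (hS : Measurable S) (hT : Measurable T)
    {γ : E → ℝ} (hγ : IntegrableOn γ K μ)
    (hgood : ∀ᵐ x ∂(μ.restrict K), GapGood K M φ S T γ x)
    (e : E) (he : ‖e‖ = 1) {r : ℝ} (hr : 0 < r) :
    ∫ x in K, |⟪T x - S x, e⟫_ℝ| ∂μ ≤ (∫ x in K, γ x ∂μ) / r +
      6 * M * (μ.real K -
        μ.real (K ∩ ((fun x => x + r • e) ⁻¹' K) ∩ ((fun x => x - r • e) ⁻¹' K))) := by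
  classical
  set v : E := r • e with hv
  have hKm : MeasurableSet K := hKc.measurableSet
  have hKfin : μ K ≠ ∞ := hKc.measure_lt_top.ne
  set Kp : Set E := (fun x => x + v) ⁻¹' K with hKp
  set Km : Set E := (fun x => x - v) ⁻¹' K with hKm'
  have hKpm : MeasurableSet Kp := (measurable_add_const v) hKm
  have hKmm : MeasurableSet Km := (measurable_sub_const v) hKm
  have hμKp : μ Kp = μ K := measure_preimage_add_right μ v K
  have hμKm : μ Km = μ K := by
    have : Km = (fun x => x + (-v)) ⁻¹' K := by ext x; simp [hKm', sub_eq_add_neg]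
    rw [this]; exact measure_preimage_add_right μ (-v) K
  set Kr : Set E := K ∩ Kp ∩ Km with hKr
  have hKrm : MeasurableSet Kr := (hKm.inter hKpm).inter hKmm
  have hKrK : Kr ⊆ K := fun x hx => hx.1.1
  have hKrKp : Kr ⊆ Kp := fun x hx => hx.1.2
  have hKrKm : Kr ⊆ Km := fun x hx => hx.2
  -- a.e. goodness at x, x+v, x-v
  have hg : ∀ᵐ x ∂μ, x ∈ K → GapGood K M φ S T γ x := (ae_restrict_iff' hKm).1 hgood
  have hgp : ∀ᵐ x ∂μ, x + v ∈ K → GapGood K M φ S T γ (x + v) :=
    (measurePreserving_add_right μ v).quasiMeasurePreserving.ae hg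
  have hgm : ∀ᵐ x ∂μ, x - v ∈ K → GapGood K M φ S T γ (x - v) := by
    have := (measurePreserving_add_right μ (-v)).quasiMeasurePreserving.ae hg
    simpa [sub_eq_add_neg] using this
  -- the functions
  set m : E → ℝ := K.indicator (fun x => ⟪S x, e⟫_ℝ) with hm
  have hmeasS : Measurable (fun x => ⟪S x, e⟫_ℝ) := hS.inner measurable_const
  have hmbd : ∀ᵐ x ∂(μ.restrict K), ‖⟪S x, e⟫_ℝ‖ ≤ M := by
    filter_upwards [hgood] with x hx
    calc ‖⟪S x, e⟫_ℝ‖ ≤ ‖S x‖ * ‖e‖ := norm_inner_le_norm _ _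
      _ ≤ M := by rw [he, mul_one]; exact hx.1
  have hmint : Integrable m μ :=
    (Measure.integrableOn_of_bounded hKfin hmeasS.aestronglyMeasurable
      hmbd).integrable_indicator hKm
  have hmlow : ∀ y, (y ∈ K → GapGood K M φ S T γ y) →
      -(M * K.indicator (fun _ => (1 : ℝ)) y) ≤ m y ∧ m y ≤ M * K.indicator (fun _ => (1 : ℝ)) y := by
    intro y hy
    by_cases hyK : y ∈ K
    · have h1 : |⟪S y, e⟫_ℝ| ≤ M := by
        calc |⟪S y, e⟫_ℝ| ≤ ‖S y‖ * ‖e‖ := abs_real_inner_le_norm _ _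
          _ ≤ M := by rw [he, mul_one]; exact (hy hyK).1
      rw [hm, indicator_of_mem hyK, indicator_of_mem hyK, mul_one]
      exact abs_le.1 h1
    · rw [hm, indicator_of_notMem hyK, indicator_of_notMem hyK, mul_zero, neg_zero]
      exact ⟨le_rfl, le_rfl⟩
  set u : E → ℝ := K.indicator (fun x => |⟪T x - S x, e⟫_ℝ|) with hu
  set f1 : E → ℝ := fun x => m (x + v) - m (x - v) with hf1
  set f2 : E → ℝ := fun x => K.indicator γ x / r with hf2
  set f3 : E → ℝ := fun x => (4 * M) * (K \ Kr).indicator (fun _ => (1 : ℝ)) x with hf3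
  set f4 : E → ℝ := fun x => M * (Kp \ K).indicator (fun _ => (1 : ℝ)) x with hf4
  set f5 : E → ℝ := fun x => M * (Km \ K).indicator (fun _ => (1 : ℝ)) x with hf5
  have hae : ∀ᵐ x ∂μ, u x ≤ f1 x + f2 x + f3 x + f4 x + f5 x := by
    filter_upwards [hg, hgp, hgm] with x h0 hp hm'
    have bp := hmlow (x + v) hp
    have bm := hmlow (x - v) hm'
    by_cases hxK : x ∈ K
    · have g0 := h0 hxK
      have hγ0 : 0 ≤ γ x := g0.gamma_nonneg hxK
      have e4 : (Kp \ K).indicator (fun _ => (1 : ℝ)) x = 0 :=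
        indicator_of_notMem (fun h => h.2 hxK) _
      have e5 : (Km \ K).indicator (fun _ => (1 : ℝ)) x = 0 :=
        indicator_of_notMem (fun h => h.2 hxK) _
      have e2 : K.indicator γ x = γ x := indicator_of_mem hxK _
      have eu : u x = |⟪T x - S x, e⟫_ℝ| := indicator_of_mem hxK _
      by_cases hxr : x ∈ Kr
      · have hxp : x + v ∈ K := hxr.1.2
        have hxm : x - v ∈ K := hxr.2
        have e3 : (K \ Kr).indicator (fun _ => (1 : ℝ)) x = 0 :=
          indicator_of_notMem (fun h => h.2 hxr) _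
        have key := gapGood_pointwise hr hxK hxp hxm g0 (hp hxp) (hm' hxm)
        have emp : m (x + v) = ⟪S (x + v), e⟫_ℝ := indicator_of_mem hxp _
        have emm : m (x - v) = ⟪S (x - v), e⟫_ℝ := indicator_of_mem hxm _
        simp only [hf1, hf2, hf3, hf4, hf5, e2, e3, e4, e5, eu, emp, emm]
        linarith
      · have e3 : (K \ Kr).indicator (fun _ => (1 : ℝ)) x = 1 :=
          indicator_of_mem ((mem_sdiff x).2 ⟨hxK, hxr⟩) _
        have hub : |⟪T x - S x, e⟫_ℝ| ≤ 2 * M := by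
          calc |⟪T x - S x, e⟫_ℝ| ≤ ‖T x - S x‖ * ‖e‖ := abs_real_inner_le_norm _ _
            _ = ‖T x - S x‖ := by rw [he, mul_one]
            _ ≤ ‖T x‖ + ‖S x‖ := norm_sub_le _ _
            _ ≤ 2 * M := by linarith [g0.1, g0.2.1]
        have i1 : K.indicator (fun _ => (1 : ℝ)) (x + v) ≤ 1 := by
          by_cases h : x + v ∈ K
          · rw [indicator_of_mem h]
          · rw [indicator_of_notMem h]; exact zero_le_one
        have i2 : K.indicator (fun _ => (1 : ℝ)) (x - v) ≤ 1 := by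
          by_cases h : x - v ∈ K
          · rw [indicator_of_mem h]
          · rw [indicator_of_notMem h]; exact zero_le_one
        have hγr : 0 ≤ γ x / r := div_nonneg hγ0 hr.le
        simp only [hf1, hf2, hf3, hf4, hf5, e2, e3, e4, e5, eu]
        nlinarith [bp.1, bm.2]
    · have eu : u x = 0 := indicator_of_notMem hxK _
      have e2 : K.indicator γ x = 0 := indicator_of_notMem hxK _
      have e3 : (K \ Kr).indicator (fun _ => (1 : ℝ)) x = 0 :=
        indicator_of_notMem (fun h => hxK h.1) _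
      have e4 : (Kp \ K).indicator (fun _ => (1 : ℝ)) x = K.indicator (fun _ => (1 : ℝ)) (x + v) := by
        by_cases h : x + v ∈ K
        · rw [indicator_of_mem h, indicator_of_mem ((mem_sdiff x).2 ⟨h, hxK⟩)]
        · rw [indicator_of_notMem h, indicator_of_notMem (fun h' => h h'.1)]
      have e5 : (Km \ K).indicator (fun _ => (1 : ℝ)) x = K.indicator (fun _ => (1 : ℝ)) (x - v) := by
        by_cases h : x - v ∈ K
        · rw [indicator_of_mem h, indicator_of_mem ((mem_sdiff x).2 ⟨h, hxK⟩)]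
        · rw [indicator_of_notMem h, indicator_of_notMem (fun h' => h h'.1)]
      simp only [hf1, hf2, hf3, hf4, hf5, e2, e3, e4, e5, eu]
      simp only [zero_div, mul_zero, add_zero]
      linarith [bp.1, bm.2]
  -- integrability
  have hfinKr : μ (K \ Kr) ≠ ∞ := measure_ne_top_of_subset sdiff_subset hKfin
  have hfinKp : μ (Kp \ K) ≠ ∞ := measure_ne_top_of_subset sdiff_subset (hμKp ▸ hKfin)
  have hfinKm : μ (Km \ K) ≠ ∞ := measure_ne_top_of_subset sdiff_subset (hμKm ▸ hKfin)
  have hi1 : Integrable f1 μ := (hmint.comp_add_right v).sub (hmint.comp_sub_right v)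
  have hi2 : Integrable f2 μ := (hγ.integrable_indicator hKm).div_const r
  have hind : ∀ s : Set E, MeasurableSet s → μ s ≠ ∞ →
      Integrable (s.indicator (fun _ => (1 : ℝ))) μ := fun s hs hfin =>
    (integrableOn_const hfin).integrable_indicator hs
  have hi3 : Integrable f3 μ := (hind _ (hKm.diff hKrm) hfinKr).const_mul _
  have hi4 : Integrable f4 μ := (hind _ (hKpm.diff hKm) hfinKp).const_mul _
  have hi5 : Integrable f5 μ := (hind _ (hKmm.diff hKm) hfinKm).const_mul _
  have hiu : Integrable u μ := by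
    refine (Measure.integrableOn_of_bounded (M := 2 * M) hKfin ?_ ?_).integrable_indicator hKm
    · exact ((hT.sub hS).inner measurable_const).abs.aestronglyMeasurable
    · filter_upwards [hgood] with x g0
      rw [Real.norm_eq_abs, abs_abs]
      calc |⟪T x - S x, e⟫_ℝ| ≤ ‖T x - S x‖ * ‖e‖ := abs_real_inner_le_norm _ _
        _ = ‖T x - S x‖ := by rw [he, mul_one]
        _ ≤ ‖T x‖ + ‖S x‖ := norm_sub_le _ _
        _ ≤ 2 * M := by linarith [g0.1, g0.2.1]
  have hmono : ∫ x, u x ∂μ ≤ ∫ x, (f1 x + f2 x + f3 x + f4 x + f5 x) ∂μ :=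
    integral_mono_ae hiu ((((hi1.add hi2).add hi3).add hi4).add hi5) hae
  have eI : ∫ x, (f1 x + f2 x + f3 x + f4 x + f5 x) ∂μ =
      ∫ x, f1 x ∂μ + ∫ x, f2 x ∂μ + ∫ x, f3 x ∂μ + ∫ x, f4 x ∂μ + ∫ x, f5 x ∂μ := by
    have h12 := integral_add hi1 hi2
    have h123 := integral_add (hi1.add hi2) hi3
    have h1234 := integral_add ((hi1.add hi2).add hi3) hi4
    have h12345 := integral_add (((hi1.add hi2).add hi3).add hi4) hi5
    simp only [Pi.add_apply] at h12 h123 h1234 h12345
    rw [h12345, h1234, h123, h12]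
  have e1 : ∫ x, f1 x ∂μ = 0 := by
    rw [hf1, integral_sub (hmint.comp_add_right v) (hmint.comp_sub_right v),
      integral_add_right_eq_self m v, integral_sub_right_eq_self m v, sub_self]
  have e2 : ∫ x, f2 x ∂μ = (∫ x in K, γ x ∂μ) / r := by
    rw [hf2, integral_div, integral_indicator hKm]
  have e3 : ∫ x, f3 x ∂μ = 4 * M * (μ.real K - μ.real Kr) := by
    rw [hf3, integral_const_mul, integral_indicator_const _ (hKm.diff hKrm),
      measureReal_sdiff hKrK hKrm hKfin, smul_eq_mul, mul_one]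
  have hrealKp : μ.real Kp = μ.real K := by rw [measureReal_def, measureReal_def, hμKp]
  have hrealKm : μ.real Km = μ.real K := by rw [measureReal_def, measureReal_def, hμKm]
  have e4 : ∫ x, f4 x ∂μ ≤ M * (μ.real K - μ.real Kr) := by
    rw [hf4, integral_const_mul, integral_indicator_const _ (hKpm.diff hKm), smul_eq_mul, mul_one]
    refine mul_le_mul_of_nonneg_left ?_ hM
    calc μ.real (Kp \ K) ≤ μ.real (Kp \ Kr) :=
          measureReal_mono (sdiff_subset_sdiff_right hKrK)
            (measure_ne_top_of_subset sdiff_subset (hμKp ▸ hKfin))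
      _ = μ.real K - μ.real Kr := by
          rw [measureReal_sdiff hKrKp hKrm (hμKp ▸ hKfin), hrealKp]
  have e5 : ∫ x, f5 x ∂μ ≤ M * (μ.real K - μ.real Kr) := by
    rw [hf5, integral_const_mul, integral_indicator_const _ (hKmm.diff hKm), smul_eq_mul, mul_one]
    refine mul_le_mul_of_nonneg_left ?_ hM
    calc μ.real (Km \ K) ≤ μ.real (Km \ Kr) :=
          measureReal_mono (sdiff_subset_sdiff_right hKrK)
            (measure_ne_top_of_subset sdiff_subset (hμKm ▸ hKfin))
      _ = μ.real K - μ.real Kr := by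
          rw [measureReal_sdiff hKrKm hKrm (hμKm ▸ hKfin), hrealKm]
  have eu : ∫ x, u x ∂μ = ∫ x in K, |⟪T x - S x, e⟫_ℝ| ∂μ := integral_indicator hKm
  rw [eu, eI, e1, e2, e3] at hmono
  linarith

/-- Volume of `K ∩ (K - re) ∩ (K + re)` for a convex body with an inner ball of radius `r0`. -/
theorem real_inter_translates_ge (μ : Measure E) [μ.IsAddHaarMeasure] {K : Set E}
    (hKc : IsCompact K) (hKv : Convex ℝ K) {x0 : E} {r0 : ℝ} (hr0 : 0 < r0)
    (hball : Metric.closedBall x0 r0 ⊆ K) (e : E) (he : ‖e‖ = 1) {r : ℝ} (hr : 0 < r)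
    (hr' : r ≤ r0) :
    μ.real K - μ.real (K ∩ ((fun x => x + r • e) ⁻¹' K) ∩ ((fun x => x - r • e) ⁻¹' K)) ≤
      (Module.finrank ℝ E : ℝ) * (r / r0) * μ.real K := by
  set t : ℝ := r / r0 with ht
  have ht0 : 0 < t := div_pos hr hr0
  have ht1 : t ≤ 1 := (div_le_one hr0).2 hr'
  have htr : t * r0 = r := div_mul_cancel₀ r hr0.ne'
  set Kr : Set E := K ∩ ((fun x => x + r • e) ⁻¹' K) ∩ ((fun x => x - r • e) ⁻¹' K) with hKr
  have hKfin : μ K ≠ ∞ := hKc.measure_lt_top.ne
  have hKrK : Kr ⊆ K := fun x hx => hx.1.1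
  have hKrfin : μ Kr ≠ ∞ := measure_ne_top_of_subset hKrK hKfin
  have hx0 : x0 ∈ K := hball (Metric.mem_closedBall_self hr0.le)
  have hxp : x0 + r0 • e ∈ K := by
    apply hball
    rw [Metric.mem_closedBall, dist_eq_norm, add_sub_cancel_left, norm_smul, he, mul_one,
      Real.norm_eq_abs, abs_of_pos hr0]
  have hxm : x0 - r0 • e ∈ K := by
    apply hball
    rw [Metric.mem_closedBall, dist_eq_norm, sub_sub_cancel_left, norm_neg, norm_smul, he,
      mul_one, Real.norm_eq_abs, abs_of_pos hr0]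
  have hsub : AffineMap.homothety x0 (1 - t) '' K ⊆ Kr := by
    rintro y ⟨k, hk, rfl⟩
    have h1t : 0 ≤ 1 - t := by linarith
    have hy : (AffineMap.homothety x0 (1 - t)) k = (1 - t) • k + t • x0 := by
      rw [AffineMap.homothety_apply, vsub_eq_sub, vadd_eq_add]
      module
    refine ⟨⟨?_, ?_⟩, ?_⟩
    · rw [hy]
      exact hKv hk hx0 h1t ht0.le (by ring)
    · show (AffineMap.homothety x0 (1 - t)) k + r • e ∈ K
      have : (AffineMap.homothety x0 (1 - t)) k + r • e = (1 - t) • k + t • (x0 + r0 • e) := by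
        rw [hy, smul_add, smul_smul, htr]; abel
      rw [this]
      exact hKv hk hxp h1t ht0.le (by ring)
    · show (AffineMap.homothety x0 (1 - t)) k - r • e ∈ K
      have : (AffineMap.homothety x0 (1 - t)) k - r • e = (1 - t) • k + t • (x0 - r0 • e) := by
        rw [hy, smul_sub, smul_smul, htr]; abel
      rw [this]
      exact hKv hk hxm h1t ht0.le (by ring)
  have hH : μ.real (AffineMap.homothety x0 (1 - t) '' K) =
      (1 - t) ^ Module.finrank ℝ E * μ.real K := by
    rw [measureReal_def, Measure.addHaar_image_homothety, ENNReal.toReal_mul,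
      ENNReal.toReal_ofReal (abs_nonneg _), abs_of_nonneg (pow_nonneg (by linarith) _),
      measureReal_def]
  have hge : (1 - t) ^ Module.finrank ℝ E * μ.real K ≤ μ.real Kr := by
    rw [← hH]
    exact measureReal_mono hsub hKrfin
  have hbern : 1 - (Module.finrank ℝ E : ℝ) * t ≤ (1 - t) ^ Module.finrank ℝ E := by
    have := one_add_mul_le_pow (a := -t) (by linarith) (Module.finrank ℝ E)
    have e1 : (1 : ℝ) + -t = 1 - t := by ring
    rw [e1] at this
    linarith
  have hV : 0 ≤ μ.real K := measureReal_nonneg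
  nlinarith

/-- Gap lemma, scale form: for every `r ∈ (0, r0]`. -/
theorem gap_scale (μ : Measure E) [μ.IsAddHaarMeasure] {K : Set E} (hKc : IsCompact K)
    (hKv : Convex ℝ K) {x0 : E} {r0 : ℝ} (hr0 : 0 < r0) (hball : Metric.closedBall x0 r0 ⊆ K)
    {M : ℝ} (hM : 0 ≤ M) {φ : E → ℝ} {S T : E → E} (hS : Measurable S) (hT : Measurable T)
    {γ : E → ℝ} (hγ : IntegrableOn γ K μ)
    (hgood : ∀ᵐ x ∂(μ.restrict K), GapGood K M φ S T γ x) {r : ℝ} (hr : 0 < r) (hr' : r ≤ r0) :
    ∫ x in K, ‖T x - S x‖ ∂μ ≤ (Module.finrank ℝ E : ℝ) * ((∫ x in K, γ x ∂μ) / r +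
      6 * M * ((Module.finrank ℝ E : ℝ) * (r / r0) * μ.real K)) := by
  classical
  set b := stdOrthonormalBasis ℝ E with hb
  have hKm : MeasurableSet K := hKc.measurableSet
  have hKfin : μ K ≠ ∞ := hKc.measure_lt_top.ne
  have hnorm : ∀ w : E, ‖w‖ ≤ ∑ i, |⟪w, b i⟫_ℝ| := by
    intro w
    calc ‖w‖ = ‖∑ i, ⟪b i, w⟫_ℝ • b i‖ := by rw [b.sum_repr' w]
      _ ≤ ∑ i, ‖⟪b i, w⟫_ℝ • b i‖ := norm_sum_le _ _
      _ = ∑ i, |⟪w, b i⟫_ℝ| := by
          refine Finset.sum_congr rfl fun i _ => ?_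
          rw [norm_smul, b.orthonormal.1 i, mul_one, Real.norm_eq_abs, real_inner_comm]
  have hbd : ∀ᵐ x ∂(μ.restrict K), ‖T x - S x‖ ≤ 2 * M := by
    filter_upwards [hgood] with x g0
    calc ‖T x - S x‖ ≤ ‖T x‖ + ‖S x‖ := norm_sub_le _ _
      _ ≤ 2 * M := by linarith [g0.1, g0.2.1]
  have hint : ∀ i, IntegrableOn (fun x => |⟪T x - S x, b i⟫_ℝ|) K μ := by
    intro i
    refine Measure.integrableOn_of_bounded (M := 2 * M) hKfin ?_ ?_
    · exact ((hT.sub hS).inner measurable_const).abs.aestronglyMeasurable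
    · filter_upwards [hbd] with x hx
      rw [Real.norm_eq_abs, abs_abs]
      calc |⟪T x - S x, b i⟫_ℝ| ≤ ‖T x - S x‖ * ‖b i‖ := abs_real_inner_le_norm _ _
        _ = ‖T x - S x‖ := by rw [b.orthonormal.1 i, mul_one]
        _ ≤ 2 * M := hx
  have hintN : IntegrableOn (fun x => ‖T x - S x‖) K μ := by
    refine Measure.integrableOn_of_bounded (M := 2 * M) hKfin ?_ ?_
    · exact (hT.sub hS).norm.aestronglyMeasurable
    · filter_upwards [hbd] with x hx
      rw [Real.norm_eq_abs, abs_of_nonneg (norm_nonneg _)]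
      exact hx
  calc ∫ x in K, ‖T x - S x‖ ∂μ ≤ ∫ x in K, ∑ i, |⟪T x - S x, b i⟫_ℝ| ∂μ := by
        refine integral_mono hintN (integrable_finsetSum _ fun i _ => hint i) fun x => hnorm _
    _ = ∑ i, ∫ x in K, |⟪T x - S x, b i⟫_ℝ| ∂μ := integral_finsetSum _ fun i _ => hint i
    _ ≤ ∑ _i : Fin (Module.finrank ℝ E), ((∫ x in K, γ x ∂μ) / r +
          6 * M * ((Module.finrank ℝ E : ℝ) * (r / r0) * μ.real K)) := by
        refine Finset.sum_le_sum fun i _ => ?_
        have h1 := gap_dir_integral μ hKc hM hS hT hγ hgood (b i) (b.orthonormal.1 i) hr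
        have h2 := real_inter_translates_ge μ hKc hKv hr0 hball (b i) (b.orthonormal.1 i) hr hr'
        have h3 := mul_le_mul_of_nonneg_left h2 (by positivity : (0 : ℝ) ≤ 6 * M)
        linarith
    _ = _ := by
        rw [Finset.sum_const, Finset.card_univ, Fintype.card_fin, nsmul_eq_mul]

/-- **Gap lemma (G)**, Bochner form for a Haar measure restricted to a convex body. -/
theorem gap_lemma (μ : Measure E) [μ.IsAddHaarMeasure] {K : Set E} (hKc : IsCompact K)
    (hKv : Convex ℝ K) (hKi : (interior K).Nonempty) {M : ℝ} (hM : 0 ≤ M) :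
    ∃ C : ℝ, 0 ≤ C ∧ ∀ (φ : E → ℝ) (S T : E → E) (γ : E → ℝ), Measurable S → Measurable T →
      IntegrableOn γ K μ → (∀ᵐ x ∂(μ.restrict K), GapGood K M φ S T γ x) →
      ∫ x in K, ‖T x - S x‖ ∂μ ≤ C * Real.sqrt (∫ x in K, γ x ∂μ) := by
  obtain ⟨x0, hx0⟩ := hKi
  obtain ⟨ε, hε, hεK⟩ := Metric.isOpen_iff.1 isOpen_interior x0 hx0
  set r0 : ℝ := ε / 2 with hr0def
  have hr0 : 0 < r0 := by positivity
  have hball : Metric.closedBall x0 r0 ⊆ K :=
    (Metric.closedBall_subset_ball (by linarith)).trans (hεK.trans interior_subset)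
  set d : ℝ := (Module.finrank ℝ E : ℝ) with hd
  have hd0 : 0 ≤ d := Nat.cast_nonneg _
  set V : ℝ := μ.real K with hV
  have hV0 : 0 ≤ V := measureReal_nonneg
  set A : ℝ := d * (6 * M * (d * V / r0)) + 1 with hA
  have hA0 : 0 < A := by positivity
  refine ⟨d + A + 2 * M * V / r0, by positivity, ?_⟩
  intro φ S T γ hS hT hγ hgood
  have hKm : MeasurableSet K := hKc.measurableSet
  have hKfin : μ K ≠ ∞ := hKc.measure_lt_top.ne
  set X : ℝ := ∫ x in K, ‖T x - S x‖ ∂μ with hX
  set Γ : ℝ := ∫ x in K, γ x ∂μ with hΓ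
  have hX0 : 0 ≤ X := integral_nonneg fun x => norm_nonneg _
  have hΓ0 : 0 ≤ Γ := by
    refine integral_nonneg_of_ae ?_
    filter_upwards [hgood, ae_restrict_mem hKm] with x g0 hxK
    exact g0.gamma_nonneg hxK
  have hscale : ∀ r : ℝ, 0 < r → r ≤ r0 → X ≤ d * Γ / r + A * r := by
    intro r hr hr'
    have h := gap_scale μ hKc hKv hr0 hball hM hS hT hγ hgood hr hr'
    have e1 : d * (Γ / r + 6 * M * (d * (r / r0) * V)) =
        d * Γ / r + d * (6 * M * (d * V / r0)) * r := by
      field_simp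
    rw [← hd, ← hΓ, ← hV, e1] at h
    have : d * (6 * M * (d * V / r0)) * r ≤ A * r := by
      apply mul_le_mul_of_nonneg_right _ hr.le
      rw [hA]; linarith
    linarith
  have htriv : X ≤ 2 * M * V := by
    have hbd : ∀ᵐ x ∂(μ.restrict K), ‖T x - S x‖ ≤ 2 * M := by
      filter_upwards [hgood] with x g0
      calc ‖T x - S x‖ ≤ ‖T x‖ + ‖S x‖ := norm_sub_le _ _
        _ ≤ 2 * M := by linarith [g0.1, g0.2.1]
    have hintN : IntegrableOn (fun x => ‖T x - S x‖) K μ := by
      refine Measure.integrableOn_of_bounded (M := 2 * M) hKfin ?_ ?_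
      · exact (hT.sub hS).norm.aestronglyMeasurable
      · filter_upwards [hbd] with x hx
        rw [Real.norm_eq_abs, abs_of_nonneg (norm_nonneg _)]
        exact hx
    have := integral_mono_ae hintN (integrableOn_const hKfin) hbd
    rw [setIntegral_const, smul_eq_mul] at this
    rw [hX, hV]; linarith
  set s : ℝ := Real.sqrt Γ with hs
  have hs0 : 0 ≤ s := Real.sqrt_nonneg _
  have hss : s * s = Γ := Real.mul_self_sqrt hΓ0
  rcases eq_or_lt_of_le hs0 with hs_zero | hs_pos
  · -- Γ = 0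
    have hΓz : Γ = 0 := by rw [← hss, ← hs_zero, mul_zero]
    have hXle : X ≤ 0 := by
      by_contra hcon
      push Not at hcon
      have hr1 : 0 < min r0 (X / (2 * A)) := lt_min hr0 (by positivity)
      have h := hscale _ hr1 (min_le_left _ _)
      rw [hΓz, mul_zero, zero_div, zero_add] at h
      have h2 : A * min r0 (X / (2 * A)) ≤ A * (X / (2 * A)) :=
        mul_le_mul_of_nonneg_left (min_le_right _ _) hA0.le
      have h3 : A * (X / (2 * A)) = X / 2 := by field_simp
      linarith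
    rw [← hs_zero, mul_zero]
    exact hXle
  · rcases le_or_gt s r0 with hle | hgt
    · have h := hscale s hs_pos hle
      have e1 : d * Γ / s = d * s := by
        rw [← hss]; field_simp
      rw [e1] at h
      have : 0 ≤ 2 * M * V / r0 * s := by positivity
      nlinarith
    · have h1 : 2 * M * V ≤ 2 * M * V / r0 * s := by
        rw [div_mul_eq_mul_div, le_div_iff₀ hr0]
        exact mul_le_mul_of_nonneg_left hgt.le (by positivity)
      have : 0 ≤ (d + A) * s := by positivity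
      nlinarith

end GapInt

end Crest.Agent.Helper8.OT
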