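import Mathlib

/-!
# Row 82 (S0109), package D leaf: the joint law of two simple maps as a labelled discrete measure

`exists_labelled_of_simple`: for a probability measure `P` on `Ω` and two simple maps
`a b : SimpleFunc Ω E` bounded by `M`, there is a finite labelled configuration `(ι, w, y, z)` with
positive weights summing to one such that `∑ w i • δ_{y i} = P.map a`,
`∑ w i • δ_{z i} = P.map b`, and `∑ w i * f (y i) (z i) = ∫ f (a ω) (b ω) dP` for EVERY
`f : E → E → ℝ`.

Uses: `P := π`, `a := q ∘ fst`, `b := q ∘ snd` (discretised coupling of two targets) and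
`P := μ`, `a := qₙ`, `b := qₘ` (cross-level labelling).  Mathlib only.
-/

set_option autoImplicit false
open MeasureTheory
open scoped ENNReal NNReal

namespace Crest.Agent.Helper8.OT

/-- The law of a simple map, evaluated on a measurable set. -/
theorem map_simpleFunc_apply {Ω β : Type*} [MeasurableSpace Ω] [MeasurableSpace β]
    (P : Measure Ω) (g : SimpleFunc Ω β) {A : Set β} (hA : MeasurableSet A) :
    P.map g A = ∑ c ∈ g.range, P (g ⁻¹' {c}) * A.indicator 1 c := by
  classical
  rw [Measure.map_apply g.measurable hA]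
  have h1 : P (g ⁻¹' A) = ∫⁻ ω, (g.map (A.indicator (1 : β → ℝ≥0∞))) ω ∂P := by
    rw [← lintegral_indicator_one (g.measurable hA)]
    refine lintegral_congr fun ω => ?_
    rw [SimpleFunc.map_apply]
    rfl
  rw [h1, SimpleFunc.lintegral_eq_lintegral, SimpleFunc.map_lintegral]
  exact Finset.sum_congr rfl fun c _ => mul_comm _ _

/-- Sums over the charged part of the range of a simple map. -/
theorem sum_charged_eq {Ω β M : Type*} [MeasurableSpace Ω] [AddCommMonoid M]
    [DecidableEq β] (P : Measure Ω) (p : SimpleFunc Ω β) (F : β → M)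
    (hF : ∀ c, P (p ⁻¹' {c}) = 0 → F c = 0) :
    ∑ i : ↥(p.range.filter (fun c => P (p ⁻¹' {c}) ≠ 0)), F i.1 = ∑ c ∈ p.range, F c := by
  rw [Finset.sum_coe_sort (p.range.filter (fun c => P (p ⁻¹' {c}) ≠ 0)) F]
  refine Finset.sum_filter_of_ne fun c _ hc h0 => hc (hF c h0)

/-- The image of the law of a simple map under a measurable map, as a labelled sum of Dirac
masses over the charged values. -/
theorem labelled_map {Ω β γ : Type*} [MeasurableSpace Ω] [MeasurableSpace β]
    [MeasurableSpace γ] [DecidableEq β] (P : Measure Ω) [IsFiniteMeasure P] (p : SimpleFunc Ω β)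
    (h : β → γ) (hh : Measurable h) :
    ∑ i : ↥(p.range.filter (fun c => P (p ⁻¹' {c}) ≠ 0)),
        ENNReal.ofReal ((P (p ⁻¹' {i.1})).toReal) • Measure.dirac (h i.1)
      = P.map (h ∘ p) := by
  ext A hA
  have e1 : P.map (h ∘ p) A = P.map p (h ⁻¹' A) := by
    rw [Measure.map_apply (hh.comp p.measurable) hA, Measure.map_apply p.measurable (hh hA)]
    rfl
  rw [e1, map_simpleFunc_apply P p (hh hA), Measure.coe_finsetSum, Finset.sum_apply]
  have e2 : ∀ i : ↥(p.range.filter (fun c => P (p ⁻¹' {c}) ≠ 0)),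
      (ENNReal.ofReal ((P (p ⁻¹' {i.1})).toReal) • Measure.dirac (h i.1)) A
        = (fun c => P (p ⁻¹' {c}) * (h ⁻¹' A).indicator 1 c) i.1 := by
    intro i
    rw [Measure.smul_apply, smul_eq_mul, ENNReal.ofReal_toReal (measure_ne_top P _),
      Measure.dirac_apply' _ hA]
    rfl
  rw [Finset.sum_congr rfl fun i _ => e2 i]
  exact sum_charged_eq P p (fun c => P (p ⁻¹' {c}) * (h ⁻¹' A).indicator 1 c)
    (fun c h0 => by rw [h0, zero_mul])

/-- **Joint law of two simple maps as a labelled discrete measure.** -/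
theorem exists_labelled_of_simple {Ω : Type*} [MeasurableSpace Ω] {E : Type}
    [NormedAddCommGroup E] [MeasurableSpace E] (P : Measure Ω) [IsProbabilityMeasure P]
    (a b : SimpleFunc Ω E) (M : ℝ) (ha : ∀ ω, ‖a ω‖ ≤ M) (hb : ∀ ω, ‖b ω‖ ≤ M) :
    ∃ (ι : Type) (_ : Fintype ι) (w : ι → ℝ) (y z : ι → E), (∀ i, 0 < w i) ∧ ∑ i, w i = 1 ∧
      (∀ i, ‖y i‖ ≤ M) ∧ (∀ i, ‖z i‖ ≤ M) ∧
      ∑ i, ENNReal.ofReal (w i) • Measure.dirac (y i) = P.map a ∧
      ∑ i, ENNReal.ofReal (w i) • Measure.dirac (z i) = P.map b ∧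
      ∀ f : E → E → ℝ, ∑ i, w i * f (y i) (z i) = ∫ ω, f (a ω) (b ω) ∂P := by
  classical
  set p : SimpleFunc Ω (E × E) := SimpleFunc.pair a b with hp
  have hrange : ∀ c ∈ p.range, ∃ ω, c = (a ω, b ω) := by
    intro c hc
    obtain ⟨ω, rfl⟩ := SimpleFunc.mem_range.1 hc
    exact ⟨ω, rfl⟩
  -- total mass
  have hsumENN : ∑ c ∈ p.range, P (p ⁻¹' {c}) = 1 := by
    have h := map_simpleFunc_apply P p (MeasurableSet.univ)
    rw [Measure.map_apply p.measurable MeasurableSet.univ, Set.preimage_univ, measure_univ] at h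
    rw [h]
    refine Finset.sum_congr rfl fun c _ => ?_
    rw [Set.indicator_univ, Pi.one_apply, mul_one]
  have hsumR : ∑ c ∈ p.range, (P (p ⁻¹' {c})).toReal = 1 := by
    rw [← ENNReal.toReal_sum fun c _ => measure_ne_top P _, hsumENN, ENNReal.toReal_one]
  refine ⟨↥(p.range.filter (fun c => P (p ⁻¹' {c}) ≠ 0)), inferInstance,
    fun i => (P (p ⁻¹' {i.1})).toReal, fun i => i.1.1, fun i => i.1.2, ?_, ?_, ?_, ?_, ?_, ?_, ?_⟩
  · intro i
    exact ENNReal.toReal_pos (Finset.mem_filter.1 i.2).2 (measure_ne_top P _)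
  · rw [sum_charged_eq P p (fun c => (P (p ⁻¹' {c})).toReal)
      (fun c h0 => by rw [h0, ENNReal.toReal_zero])]
    exact hsumR
  · intro i
    obtain ⟨ω, hω⟩ := hrange i.1 (Finset.mem_filter.1 i.2).1
    show ‖i.1.1‖ ≤ M
    rw [hω]
    exact ha ω
  · intro i
    obtain ⟨ω, hω⟩ := hrange i.1 (Finset.mem_filter.1 i.2).1
    show ‖i.1.2‖ ≤ M
    rw [hω]
    exact hb ω
  · have h := labelled_map P p Prod.fst measurable_fst
    have e : (Prod.fst ∘ p : Ω → E) = a := by
      funext ω
      rfl
    rw [e] at h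
    exact h
  · have h := labelled_map P p Prod.snd measurable_snd
    have e : (Prod.snd ∘ p : Ω → E) = b := by
      funext ω
      rfl
    rw [e] at h
    exact h
  · intro f
    set F : E × E → ℝ := fun c => f c.1 c.2 with hF
    set G : E × E → ℝ := fun c => F c - F 0 with hG
    have hint : Integrable (p.map G) P := (p.map G).integrable_of_isFiniteMeasure
    have e1 : ∫ ω, G (p ω) ∂P = ∑ c ∈ p.range, (P (p ⁻¹' {c})).toReal * G c := by
      have h1 := SimpleFunc.integral_eq_integral (p.map G) hint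
      have h2 := SimpleFunc.map_integral (μ := P) p G p.integrable_of_isFiniteMeasure
        (by simp [hG])
      rw [h2] at h1
      simp only [smul_eq_mul, SimpleFunc.map_apply] at h1
      exact h1.symm
    have e2 : ∫ ω, f (a ω) (b ω) ∂P = ∫ ω, G (p ω) ∂P + F 0 := by
      have h3 : ∀ ω, f (a ω) (b ω) = G (p ω) + F 0 := by
        intro ω
        simp [hG, hF, hp]
      simp only [h3]
      have hint' : Integrable (fun ω => G (p ω)) P := hint
      rw [integral_add hint' (integrable_const _), integral_const, probReal_univ, one_smul]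
    rw [e2, e1]
    rw [sum_charged_eq P p (fun c => (P (p ⁻¹' {c})).toReal * f c.1 c.2)
      (fun c h0 => by rw [h0, ENNReal.toReal_zero, zero_mul])]
    have e3 : ∀ c ∈ p.range, (P (p ⁻¹' {c})).toReal * f c.1 c.2 =
        (P (p ⁻¹' {c})).toReal * G c + (P (p ⁻¹' {c})).toReal * F 0 := by
      intro c _
      simp only [hG, hF]
      ring
    rw [Finset.sum_congr rfl e3, Finset.sum_add_distrib, ← Finset.sum_mul, hsumR, one_mul]

end Crest.Agent.Helper8.OT
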