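import Crest.Agent.Helper8.OT.PushLimit

/-!
# Row 82 (S0109), package D3: push-forward passes to an a.e. limit

`Crest.Agent.Helper66.OT.map_limit_eq`, statement verbatim from
`Crest/Agent/Helper66/OT/SubSpec.lean` (helper66), proved from
`Crest.Agent.Helper8.OT.map_eq_of_tendsto_ae`.  Mathlib only.
-/

set_option autoImplicit false
open MeasureTheory Filter Topology
open scoped ENNReal NNReal

namespace Crest.Agent.Helper66.OT

/-- **D3 (push-forward passes to an a.e. limit).** `ρ.map (S n) = μ.map (q n)`, `q n → id`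
uniformly on a set `Y` carrying `μ`, `S n → S'` `ρ`-a.e. Then `ρ.map S' = μ`. -/
theorem map_limit_eq {d : ℕ} (ρ μ : Measure (EuclideanSpace ℝ (Fin d))) [IsFiniteMeasure ρ]
    [IsFiniteMeasure μ] (Y : Set (EuclideanSpace ℝ (Fin d))) (hμY : μ Yᶜ = 0)
    (q : ℕ → EuclideanSpace ℝ (Fin d) → EuclideanSpace ℝ (Fin d)) (hq : ∀ n, Measurable (q n))
    (ε : ℕ → ℝ) (hε : Tendsto ε atTop (𝓝 0)) (hqε : ∀ n, ∀ y ∈ Y, dist (q n y) y ≤ ε n)
    (S : ℕ → EuclideanSpace ℝ (Fin d) → EuclideanSpace ℝ (Fin d)) (hS : ∀ n, Measurable (S n))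
    (hpush : ∀ n, ρ.map (S n) = μ.map (q n))
    (S' : EuclideanSpace ℝ (Fin d) → EuclideanSpace ℝ (Fin d)) (hS' : Measurable S')
    (hlim : ∀ᵐ x ∂ρ, Tendsto (fun n => S n x) atTop (𝓝 (S' x))) :
    ρ.map S' = μ := by
  refine Crest.Agent.Helper8.OT.map_eq_of_tendsto_ae ρ μ S S' q hS hS' hq hlim ?_ hpush
  have hY : ∀ᵐ y ∂μ, y ∈ Y := by
    have h : ∀ᵐ y ∂μ, y ∉ Yᶜ := measure_eq_zero_iff_ae_notMem.1 hμY
    filter_upwards [h] with y hy
    exact Set.not_notMem.1 hy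
  filter_upwards [hY] with y hy
  rw [tendsto_iff_dist_tendsto_zero]
  exact squeeze_zero (fun n => dist_nonneg) (fun n => hqε n y hy) hε

end Crest.Agent.Helper66.OT
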