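import Mathlib

/-!
# Row 82 (S0109), package D leaf: push-forward of an a.e. limit

`map_eq_of_tendsto_ae`: if `S n → Sinf` `ρ`-a.e., `q n y → y` for `μ`-a.e. `y`, and
`ρ.map (S n) = μ.map (q n)` for all `n`, then `ρ.map Sinf = μ` (finite measures, target a
Borel space in which closed sets are approximable from outside, e.g. any metric space).

Mathlib only.
-/

set_option autoImplicit false
open MeasureTheory Filter Topology
open scoped ENNReal NNReal BoundedContinuousFunction

namespace Crest.Agent.Helper8.OT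

/-- Dominated convergence for a bounded continuous test function along an a.e. convergent
sequence of measurable maps. -/
theorem tendsto_lintegral_bcf_comp {X E : Type*} [MeasurableSpace X] [MeasurableSpace E]
    [TopologicalSpace E] [BorelSpace E] (ρ : Measure X) [IsFiniteMeasure ρ]
    (S : ℕ → X → E) (Sinf : X → E) (hS : ∀ n, Measurable (S n))
    (hlim : ∀ᵐ x ∂ρ, Tendsto (fun n => S n x) atTop (𝓝 (Sinf x))) (f : E →ᵇ ℝ≥0) :
    Tendsto (fun n => ∫⁻ x, f (S n x) ∂ρ) atTop (𝓝 (∫⁻ x, f (Sinf x) ∂ρ)) := by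
  have hfm : Measurable (fun y : E => ((f y : ℝ≥0) : ℝ≥0∞)) :=
    f.continuous.measurable.coe_nnreal_ennreal
  refine tendsto_lintegral_of_dominated_convergence (fun _ => ((nndist 0 f : ℝ≥0) : ℝ≥0∞))
    (fun n => hfm.comp (hS n)) (fun n => Filter.Eventually.of_forall fun x => ?_) ?_ ?_
  · exact ENNReal.coe_le_coe.2 (f.apply_le_nndist_zero (S n x))
  · rw [lintegral_const]
    exact ENNReal.mul_ne_top ENNReal.coe_ne_top (measure_ne_top ρ _)
  · filter_upwards [hlim] with x hx
    exact (ENNReal.continuous_coe.tendsto _).comp ((f.continuous.tendsto _).comp hx)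

/-- **Push-forward of an a.e. limit.** -/
theorem map_eq_of_tendsto_ae {X E : Type*} [MeasurableSpace X] [MeasurableSpace E]
    [TopologicalSpace E] [BorelSpace E] [HasOuterApproxClosed E]
    (ρ : Measure X) [IsFiniteMeasure ρ] (μ : Measure E) [IsFiniteMeasure μ]
    (S : ℕ → X → E) (Sinf : X → E) (q : ℕ → E → E)
    (hS : ∀ n, Measurable (S n)) (hSinf : Measurable Sinf) (hq : ∀ n, Measurable (q n))
    (hlim : ∀ᵐ x ∂ρ, Tendsto (fun n => S n x) atTop (𝓝 (Sinf x)))
    (hqlim : ∀ᵐ y ∂μ, Tendsto (fun n => q n y) atTop (𝓝 y))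
    (hpush : ∀ n, ρ.map (S n) = μ.map (q n)) :
    ρ.map Sinf = μ := by
  have : IsFiniteMeasure (ρ.map Sinf) := Measure.isFiniteMeasure_map ρ Sinf
  refine ext_of_forall_lintegral_eq_of_IsFiniteMeasure fun f => ?_
  have hfm : Measurable (fun y : E => ((f y : ℝ≥0) : ℝ≥0∞)) :=
    f.continuous.measurable.coe_nnreal_ennreal
  have h1 := tendsto_lintegral_bcf_comp ρ S Sinf hS hlim f
  have h2 := tendsto_lintegral_bcf_comp μ q id hq hqlim f
  have h3 : ∀ n, ∫⁻ x, f (S n x) ∂ρ = ∫⁻ y, f (q n y) ∂μ := by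
    intro n
    rw [← lintegral_map hfm (hS n), hpush n, lintegral_map hfm (hq n)]
  rw [lintegral_map hfm hSinf]
  simp only [h3] at h1
  exact tendsto_nhds_unique h1 h2

end Crest.Agent.Helper8.OT
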